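import Vale.Agent.P201.Stmt

open Vale.Agent.P201

namespace Vale.Agent.Results.P194.DominantCoefficient

/-- One-sided inverses are two-sided when one coefficient dominates. -/
theorem result (K G : Type) [Field K] [Group G] :
    (∀ (a b : MonoidAlgebra K G) (V : ValuationSubring K) (g0 : G), a.coeff g0 ≠ 0 →
      (∀ g, g ≠ g0 → V.valuation (a.coeff g) < V.valuation (a.coeff g0)) →
      a * b = 1 → b * a = 1) ∧
    (∀ (a b : MonoidAlgebra K G) (g0 : G), a.coeff g0 ≠ 0 →
      Transcendental (Subfield.closure (a.coeff '' {g | g ≠ g0})) (a.coeff g0) →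
      a * b = 1 → b * a = 1) ∧
    (TorsionFree G → ∀ (a b : MonoidAlgebra K G) (g h : G), a.coeff.support.card = 3 →
      a.coeff g ≠ 0 → a.coeff h ≠ 0 → ¬IsIntegral ℤ (a.coeff g / a.coeff h) →
      a * b = 1 → b * a = 1) := by
  refine ⟨fun a b V g0 h0 h hab =>
      mul_eq_one_comm_of_regular (regular_of_one_dominant a V g0 h0 h) hab,
    fun a b g0 h0 h hab => mul_eq_one_comm_of_regular
      (regular_of_unique_small a g0 h0 fun P hP => small_of_transcendental a g0 h P hP) hab,
    fun ht a b g h hc hg hh hr hab => mul_eq_one_comm_of_regular ?_ hab⟩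
  by_contra hn
  exact hr (three_term_ratios ht a hc hn g h hg hh)

end Vale.Agent.Results.P194.DominantCoefficient
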