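import Vale.Agent.GroupRingKernels.Series
import Vale.Agent.P194.Sofic

open Vale.Agent.P194 Vale.Agent.GroupRingKernels

namespace Vale.Agent.Results.P194.IndicableKernels

/-- Direct and stable finiteness pass through locally p-indicable and locally indicable kernels. -/
theorem result :
    (∀ (p : ℕ), p.Prime → ∀ (K : Type) [Field K] [CharP K p] (G : Type) [Group G]
      (N : Subgroup G) [N.Normal], LocallyPIndicable p N →
        (StablyFinite K (G ⧸ N) → StablyFinite K G) ∧
        (IsSofic (G ⧸ N) → StablyFinite K G ∧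
          ∀ a b : MonoidAlgebra K G, a * b = 1 → b * a = 1)) ∧
    (∀ (K : Type) [Field K] (G : Type) [Group G] (N : Subgroup G) [N.Normal],
      LocallyIndicable N →
        (StablyFinite K (G ⧸ N) → StablyFinite K G) ∧
        (IsSofic (G ⧸ N) → StablyFinite K G ∧
          ∀ a b : MonoidAlgebra K G, a * b = 1 → b * a = 1)) ∧
    (∀ (p : ℕ), p.Prime → ∀ (G : Type) [Group G] (N : ℕ → Subgroup G) [∀ i, (N i).Normal],
      (∀ g, (∀ i, g ∈ N i) → g = 1) →
      (∀ i, LocallyPIndicable p ((N i).map (QuotientGroup.mk' (N (i + 1)))) ∨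
        LocallyResiduallyP p ((N i).map (QuotientGroup.mk' (N (i + 1))))) →
        LocallyPIndicable p (N 0)) := by
  have one : ∀ (K : Type) [Field K] (G : Type) [Group G], StablyFinite K G →
      ∀ a b : MonoidAlgebra K G, a * b = 1 → b * a = 1 := by
    intro K _ G _ hS a b hab
    have h := hS 1 (Matrix.scalar (Fin 1) a) (Matrix.scalar (Fin 1) b)
      (by rw [← map_mul, hab, map_one])
    rw [← map_mul] at h
    simpa using congrFun (congrFun h 0) 0
  have main : ∀ (K : Type) [Field K] (G : Type) [Group G] (N : Subgroup G) [N.Normal],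
      Transfers (aug K N) →
        (StablyFinite K (G ⧸ N) → StablyFinite K G) ∧
        (IsSofic (G ⧸ N) → StablyFinite K G ∧
          ∀ a b : MonoidAlgebra K G, a * b = 1 → b * a = 1) := by
    intro K _ G _ N _ hN
    have h1 : StablyFinite K (G ⧸ N) → StablyFinite K G :=
      stablyFinite_of_transfers (QuotientGroup.mk' N)
        (by rw [QuotientGroup.ker_mk']; exact hN)
    exact ⟨h1, fun hQ => ⟨h1 (stablyFinite_of_sofic hQ), one K G (h1 (stablyFinite_of_sofic hQ))⟩⟩
  refine ⟨?_, fun K _ G _ N _ hN => main K G N (transfers_of_locallyIndicable hN), ?_⟩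
  · intro p hp K _ _ G _ N _ hN
    have : Fact p.Prime := ⟨hp⟩
    exact main K G N (transfers_of_locallyPIndicable p hN)
  · intro p hp G _ N _ hbot hF
    have : Fact p.Prime := ⟨hp⟩
    exact locallyPIndicable_of_series p N hbot fun i =>
      (hF i).elim id (locallyPIndicable_of_locallyResiduallyP p _)

end Vale.Agent.Results.P194.IndicableKernels
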